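import Vale.Agent.P011UZG.Desc
import Vale.Agent.P011UGA.IF
import Vale.Agent.P011U.Top
import Vale.Agent.P011LT.Basic
import Vale.Agent.P011.D4.IF.Asm

/-!
The base case of type `G₂` of the gallery argument.
-/

set_option autoImplicit false
set_option linter.all false

namespace Vale.Agent.P011UZG

open Matrix Vale.Agent.P011L Vale.Agent.P011LD Vale.Agent.P183CH Vale.Agent.P011U
  Vale.Agent.P011UGA Vale.Agent.P011.D4 Vale.Agent.P011.MPQ

section
variable {F : Type} [Field F]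

/-- The opposition. -/
def sw (a b : F) (x : Fin 8 → F) : Fin 8 → F :=
  ![x 1, x 0, a⁻¹ * x 5, b⁻¹ * x 6, -(a * b) * x 7, a * x 2, b * x 3, -(a * b)⁻¹ * x 4]

theorem in_sw {E : Subgroup (GL (Fin 8) F)}
    (h : ∀ t, In E (xl t) ∧ In E (xs t) ∧ In E (yl t) ∧ In E (ys t)) {a b : F} (ha : a ≠ 0)
    (hb : b ≠ 0) : In E (sw a b) :=
  (in_act h (M := !![0, 0, a⁻¹; 0, -b⁻¹, 0; a * b, 0, 0]) (by
    simp [det_fin_three]; field_simp)).comp (in_ns h (.inl rfl)) fun x => by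
      simp only [v8, act, ns, sw, cons_val, cons_val_zero, cons_val_one, of_apply]
      and_intros <;> first | trivial | (field_simp; done) | (field_simp; ring1)

theorem sw_gen {d : Fin 2 → F} (hd : ∀ i, d i ≠ 0) (i : Fin 2) (t : F) (x : Fin 8 → F) :
    ![yl, ys] i (d i * t) (sw (-(d 0 * d 1)) (d 1) x) = sw (-(d 0 * d 1)) (d 1) (![xl, xs] i t x) ∧
    ![xl, xs] i ((d i)⁻¹ * t) (sw (-(d 0 * d 1)) (d 1) x) =
      sw (-(d 0 * d 1)) (d 1) (![yl, ys] i t x) := by
  have h0 := hd 0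
  have h1 := hd 1
  revert i
  simp only [Fin.forall_fin_two, v8, xl, xs, yl, ys, sw, cons_val, cons_val_zero, cons_val_one]
  and_intros <;> first | trivial | (field_simp; done) | (field_simp; ring1)

theorem gen_map {F' : Type} [Field F'] (f : F →+* F') (i : Fin 2) (t : F) (x : Fin 8 → F) :
    ![xl, xs] i (f t) (f ∘ x) = f ∘ ![xl, xs] i t x ∧
      ![yl, ys] i (f t) (f ∘ x) = f ∘ ![yl, ys] i t x := by
  revert i
  simp [Fin.forall_fin_two, v8, xl, xs, yl, ys]

/-- Coordinates of octonions. -/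
def oc (a b c : Fˣ) : (Fin 8 → F) ≃ₗ[F] Oct a b c where
  toFun x := ⟨⟨x 0, x 1, x 2, x 3⟩, ⟨x 4, x 5, x 6, x 7⟩⟩
  invFun x := ![x.1.re, x.1.imI, x.1.imJ, x.1.imK, x.2.re, x.2.imI, x.2.imJ, x.2.imK]
  map_add' _ _ := rfl
  map_smul' _ _ := rfl
  left_inv x := by simp [v8]
  right_inv _ := rfl

theorem oc_apply (a b c : Fˣ) (x : Fin 8 → F) :
    oc a b c x = ⟨⟨x 0, x 1, x 2, x 3⟩, ⟨x 4, x 5, x 6, x 7⟩⟩ := rfl

theorem oc_symm (a b c : Fˣ) (x : Oct a b c) : (oc a b c).symm x =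
    ![x.1.re, x.1.imI, x.1.imJ, x.1.imK, x.2.re, x.2.imI, x.2.imJ, x.2.imK] := rfl

/-- The product of octonions in coordinates. -/
def om (a b c : Fˣ) (x y : Fin 8 → F) : Fin 8 → F := (oc a b c).symm (oc a b c x * oc a b c y)

theorem ps_om [NumberField F] {a b c : Fˣ} (h : Oct.Division a b c) : PSimple (Au (om a b c)) := by
  let e := (GeneralLinearGroup.toLin' (Module.Basis.ofEquivFun (oc a b c).symm)).trans
    (LinearMap.GeneralLinearGroup.generalLinearEquiv F _)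
  have he : ∀ g x, e g (oc a b c x) = oc a b c (g.1 *ᵥ x) := fun g x => by
    refine (GeneralLinearGroup.toLin'_apply _ g _).trans ?_
    rw [Fintype.linearCombination_apply, ← Module.Basis.equivFun_symm_apply,
      Module.Basis.equivFun_ofEquivFun, ← Module.Basis.equivFun_apply,
      Module.Basis.equivFun_ofEquivFun, LinearEquiv.symm_apply_apply, LinearEquiv.symm_symm]
  rw [show Au (om a b c) = (e.symm.toMonoidHom.comp (AutC a b c).subtype).range from
    Subgroup.ext fun g => ⟨fun hg => ⟨⟨e g, fun x y => ?_⟩, e.symm_apply_apply g⟩, ?_⟩]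
  · exact ps_range _ fun N h1 h2 => (IF.autC_simple h N h1).resolve_left fun c => h2 (c ▸ bot_le)
  · obtain ⟨x, rfl⟩ := (oc a b c).surjective x
    obtain ⟨y, rfl⟩ := (oc a b c).surjective y
    rw [he, he, ← (oc a b c).apply_symm_apply (_ * _), he]
    exact (congrArg _ (hg x y)).trans ((oc a b c).apply_symm_apply _)
  · rintro ⟨g, rfl⟩ x y
    refine (oc a b c).injective ?_
    rw [← he, om, om, LinearEquiv.apply_symm_apply, LinearEquiv.apply_symm_apply, ← he, ← he]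
    exact e.apply_symm_apply g.1 ▸ g.2 _ _

/-- The splitting of an octonion algebra. -/
def ph (δ a b : F) : (Fin 8 → F) →ₗ[F] Fin 8 → F where
  toFun x := ![x 0 + δ * x 1, x 0 - δ * x 1, x 2 + δ * x 3, x 4 + δ * x 5,
    -(a * b) * (x 6 - δ * x 7), a * (x 2 - δ * x 3), b * (x 4 - δ * x 5), x 6 + δ * x 7]
  map_add' x y := by
    simp only [v8, cons_val, cons_val_zero, cons_val_one, Pi.add_apply]
    and_intros <;> ring1
  map_smul' c x := by
    simp only [v8, cons_val, cons_val_zero, cons_val_one, Pi.smul_apply, smul_eq_mul,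
      RingHom.id_apply]
    and_intros <;> ring1

theorem ph_inj [CharZero F] {δ a b : F} (h : δ ≠ 0) (ha : a ≠ 0) (hb : b ≠ 0) :
    Function.Injective (ph δ a b) := (injective_iff_map_eq_zero _).2 fun x e => by
  have c : ∀ {u v : F}, u + δ * v = 0 → u - δ * v = 0 → u = 0 ∧ v = 0 := fun {u v} h1 h2 =>
    ⟨by linear_combination (h1 + h2) / 2,
      mul_left_cancel₀ h (by linear_combination (h1 - h2) / 2)⟩
  simp [ph, v8, ha, hb] at e
  obtain ⟨e0, e1, e2, e3, e4, e5, e6, e7⟩ := e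
  simp [v8, c e0 e1, c e2 e5, c e3 e6, c e7 e4]

theorem ph_om {K : Type} [Field K] (f : F →+* K) {a b c : Fˣ} {δ : K} (h : f a = δ ^ 2)
    (x y : Fin 8 → F) : ph δ (f b) (f c) (f ∘ om a b c x y) =
      zm (ph δ (f b) (f c) (f ∘ x)) (ph δ (f b) (f c) (f ∘ y)) ∧
    zn (ph δ (f b) (f c) (f ∘ x)) = f (oc a b c x).norm := by
  simp [ph, v8, om, oc_apply, oc_symm, zm, zn, Oct.norm, nrd, h]
  and_intros <;> ring1

end

theorem bg2 (vk : VALK) : BG2 := by
  rintro k K _ _ _ _ D hk hD T ε π d ho ⟨e, he⟩ ⟨θ, hθ⟩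
  haveI := Glob.inf hk
  haveI : IsGalois k K := inferInstance
  have hπ : ∀ σ i, π σ i = i := fun σ i => e.injective (by
    have := fun i j => ((he _ _).symm.trans (ho.dg σ i j)).trans (he i j)
    have a := this (e.symm 0) (e.symm 1)
    have b := this (e.symm 1) (e.symm 0)
    rw [e.apply_symm_apply, e.apply_symm_apply] at a b
    obtain ⟨i, rfl⟩ := e.symm.surjective i
    rw [e.apply_symm_apply]
    revert i
    rw [Fin.forall_fin_two]
    revert a b
    generalize e (π σ (e.symm 0)) = u, e (π σ (e.symm 1)) = v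
    revert u v
    simp [Fin.forall_fin_two, CartanMatrix.G₂])
  obtain ⟨ψ, hψ⟩ := model hD he K
  obtain ⟨ψ₀, -⟩ := model hD he k
  have hd : ∀ i, ∃ z : kˣ, algebraMap k K z = d (e.symm i) := fun i => by
    obtain ⟨z, hz⟩ := fixed_top fun σ : K ≃ₐ[k] K =>
      (ho.eqt σ trivial (e.symm i)).symm.trans (by rw [hπ])
    exact ⟨.mk0 z (fun c => (d _).ne_zero (by rw [← hz, c, map_zero])), hz⟩
  choose z hz using hd
  obtain ⟨b, hb⟩ : ∃ b : kˣ, algebraMap k K b = -((d (e.symm 0) : K) * d (e.symm 1)) :=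
    ⟨-(z 0 * z 1), by simp [hz]⟩
  obtain ⟨c, hc⟩ : ∃ c : kˣ, algebraMap k K c = d (e.symm 1) := ⟨_, hz 1⟩
  have b0 : algebraMap k K b ≠ 0 := by simp
  have c0 : algebraMap k K c ≠ 0 := by simp
  have u : ∀ σ, ε σ ≠ 1 → ε σ = -1 := fun σ => (Int.units_eq_one_or _).resolve_left
  have u' : (-1 : ℤˣ) ≠ 1 := by decide
  obtain ⟨Q, Q1, Q2⟩ : ∃ Q : (K ≃ₐ[k] K) → (Fin 8 → K) → Fin 8 → K,
      (∀ σ, ε σ = 1 → ∀ x, Q σ x = σ ∘ x) ∧ ∀ σ, ε σ = -1 → ∀ x,
        Q σ x = sw (algebraMap k K b) (algebraMap k K c) (σ ∘ x) :=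
    ⟨fun σ x => if ε σ = 1 then σ ∘ x else sw _ _ (σ ∘ x), fun _ h _ => if_pos h,
      fun _ h _ => if_neg (h ▸ u')⟩
  have hQ : ∀ σ g x, (ψ (T.a σ g)).1.1 *ᵥ Q σ x = Q σ ((ψ g).1.1 *ᵥ x) := fun σ g => by
    refine Subgroup.closure_induction
      (p := fun g _ => ∀ x, (ψ (T.a σ g)).1.1 *ᵥ Q σ x = Q σ ((ψ g).1.1 *ᵥ x)) ?_ ?_ ?_ ?_
      ((GG_ok (D := D) (k := K)).gen.ge (Subgroup.mem_top g))
    · have a := fun i t x => gen_map (σ : K →+* K) (e i) t x
      have s := fun i t x => sw_gen (d := fun i => (d (e.symm i) : K)) (fun _ => Units.ne_zero _)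
        (e i) t x
      simp only [e.symm_apply_apply, ← hb] at s
      rw [← hc] at s
      rcases Int.units_eq_one_or (ε σ) with h | h
      · rintro _ ⟨i, t, rfl | rfl⟩ x
        · rw [(ho.pos σ i t h).1, hπ, (hψ ..).1, (hψ ..).1, Q1 σ h, Q1 σ h]
          exact (a i t x).1
        · rw [(ho.pos σ i t h).2, hπ, (hψ ..).2, (hψ ..).2, Q1 σ h, Q1 σ h]
          exact (a i t x).2
      · rintro _ ⟨i, t, rfl | rfl⟩ x
        · rw [(ho.neg σ i t h).1, hπ, (hψ ..).2, (hψ ..).1, Q2 σ h, Q2 σ h, (s ..).1]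
          exact congrArg _ (a i t x).1
        · rw [(ho.neg σ i t h).2, hπ, (hψ ..).1, (hψ ..).2, Q2 σ h, Q2 σ h, Units.val_inv_eq_inv_val,
            (s ..).2]
          exact congrArg _ (a i t x).2
    · simp
    · intro g g' _ _ h1 h2 x
      simp only [map_mul, Subgroup.coe_mul, Units.val_mul, ← mulVec_mulVec, h1, h2]
    · intro g _ h x
      simp only [map_inv, Subgroup.coe_inv]
      conv_lhs => rw [← mv_inv (ψ g).1 x, ← h, inv_mv]
  have op : Op ⊤ fun σ => ε σ = 1 := by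
    obtain ⟨L, _, h⟩ := ho.near
    exact .of_field L fun σ _ s => (h σ s).1
  have sp : ∀ x, x ≠ 0 → zn x = 0 → (∀ σ, Q σ x = x) → PSimple T.fix := fun x h0 h1 h2 => by
    refine (split (Q := Q) (in_gen hD he) ⟨fun σ _ v w => ?_, fun σ _ t v => ?_,
      fun σ _ τ _ v => ?_, fun v => (op.and (Op.vec ⊤ v)).imp fun σ _ s => (Q1 σ s.1 v).trans s.2⟩
      (fun σ => ?_) (fun σ x => ?_) h0 h1 h2).elim fun P h3 =>
        desc ψ hQ P h3.2 (fun x y => by rw [zm_map, h3.1])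
          (P011LT.PSimple.congr ψ₀.symm (P011UTS.psimple GG_ok (Chev.R_ok D)))
    · rcases Int.units_eq_one_or (ε σ) with h | h <;> simp [Q1, Q2, h, v8, sw, mul_add]
    · rcases Int.units_eq_one_or (ε σ) with h | h <;> simp [Q1, Q2, h, v8, sw, mul_left_comm]
    · rcases Int.units_eq_one_or (ε σ) with h | h <;>
        rcases Int.units_eq_one_or (ε τ) with h' | h' <;> simp [Q1, Q2, h, h', v8, sw]
      constructor <;> field_simp
    · rcases Int.units_eq_one_or (ε σ) with h | h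
      · exact ⟨1, one_mem _, fun x => by simp [Q1 σ h]⟩
      · exact (in_sw (in_gen hD he) b0 c0).imp fun g s => ⟨s.1, fun x => by rw [Q2 σ h, s.2]⟩
    · rcases Int.units_eq_one_or (ε σ) with h | h <;> simp [Q1, Q2, h, sw, add_comm]
  rcases id hk with hk' | ⟨F, _, _, _, -⟩
  · haveI : CharZero K := charZero_of_injective_algebraMap (algebraMap k K).injective
    obtain ⟨δ, h0, h1⟩ := h90_one (Γ := ⊤) (fun σ : K ≃ₐ[k] K => ((ε σ : ℤ) : K))
      (fun σ _ τ _ => by simp) (op.imp fun σ _ s => by simp [s])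
    have h2 : ∀ σ, ε σ = 1 → σ δ = δ := fun σ h => by simpa [h] using h1 σ trivial
    have h3 : ∀ σ, ε σ = -1 → σ δ = -δ := fun σ h => by
      simpa [h, neg_eq_iff_eq_neg] using h1 σ trivial
    obtain ⟨a, ha⟩ := fixed_top (c := δ ^ 2) fun σ : K ≃ₐ[k] K => by
      rcases Int.units_eq_one_or (ε σ) with h | h <;> simp [h2, h3, h]
    lift a to kˣ using Ne.isUnit fun c => pow_ne_zero 2 h0 (by rw [← ha, c, map_zero])
    obtain ⟨P, hP⟩ := gl_of _ (ph_inj h0 b0 c0)
    have h4 : ∀ σ x, Q σ (P.1 *ᵥ x) = P.1 *ᵥ (σ ∘ x) := fun σ x => by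
      rcases Int.units_eq_one_or (ε σ) with h | h <;> simp [Q1, Q2, h, h2, h3, hP, v8, sw, ph]
      and_intros <;> first | ring1 | field_simp
    by_cases h5 : Oct.Division a b c
    · exact desc ψ hQ P h4 (fun x y => by simpa only [hP] using (ph_om _ ha x y).1) (ps_om h5)
    · obtain ⟨x, h6⟩ := not_forall.1 h5
      obtain ⟨x, rfl⟩ := (oc a b c).surjective x
      rw [Classical.not_imp] at h6
      refine sp (P.1 *ᵥ (algebraMap k K ∘ x)) (fun s => h6.2 ?_)
        (by rw [hP, (ph_om _ ha x x).2, h6.1, map_zero]) fun σ => (h4 σ _).trans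
          (congrArg _ (funext fun i => σ.commutes _))
      have := congrArg (P⁻¹.1 *ᵥ ·) s
      simp only [inv_mv, mulVec_zero] at this
      rw [show x = 0 from funext fun i => (algebraMap k K).injective
        ((congrFun this i).trans (map_zero _).symm), map_zero]
  · have q : ∀ y : kˣ, Eqt (fun _ => True) π fun _ => Units.map (algebraMap k K).toMonoidHom y :=
      fun y σ _ _ => (σ.commutes _).symm
    obtain ⟨p, q, h1, h2, h3⟩ := vk k K D.R.r hk ε π ho.near Empty Empty.elim Empty.elim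
      ⟨inferInstance, fun v => v.elim, fun v => v.elim, fun φ => by
        haveI := ((φ.comp (algebraMap k K)).comp ((algebraMap (RatFunc F) k).comp
          (algebraMap F _))).charZero
        exact (not_finite F).elim, fun v => v.elim⟩
      _ _ (e.symm 0) (q b) (q c) (fun v => v.elim) θ hθ (hπ _ _)
    have f : ∀ y, Sp ε π (e.symm 0) y → ∀ σ, (ε σ = 1 → σ y = y ∧ σ (θ y) = θ y) ∧
        (ε σ = -1 → σ y = θ y ∧ σ (θ y) = y) := fun y s σ =>
      ⟨fun h => ⟨s σ h (hπ _ _), θ.symm_apply_eq.1 (s (θ⁻¹ * σ * θ) (by simp [h]) (hπ _ _))⟩,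
        fun h => ⟨θ.symm_apply_eq.1 (s (θ⁻¹ * σ) (by simp [h, hθ]) (hπ _ _)),
          s (σ * θ) (by simp [h, hθ]) (hπ _ _)⟩⟩
    refine sp ![p, θ p, q, 1, 0, algebraMap k K b * θ q, algebraMap k K c, 0] (by simp)
      (by simp [zn] at h3 ⊢; linear_combination -h3) fun σ => ?_
    rcases Int.units_eq_one_or (ε σ) with h | h
    · simp [Q1 σ h, v8, (f p h1 σ).1 h, (f q h2 σ).1 h]
    · simp [Q2 σ h, v8, sw, (f p h1 σ).2 h, (f q h2 σ).2 h]

end Vale.Agent.P011UZG
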