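import Vale.Agent.P011UZG.Model
import Vale.Agent.P011LD.H90
import Vale.Agent.P011UTS.Spl

/-!
Descent for the automorphism group of the split octonion algebra.
-/

set_option autoImplicit false
set_option linter.all false

namespace Vale.Agent.P011UZG

open Matrix Vale.Agent.P011L Vale.Agent.P011LD Vale.Agent.P183CH Vale.Agent.P011U

theorem ps_range {G H : Type} [Group G] [Group H] (f : G →* H) (h : PSimple G) :
    PSimple f.range := fun N h1 h2 => by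
  have s := f.rangeRestrict_surjective
  have := h (N.comap f.rangeRestrict) (h1.comap _) fun h3 => h2 fun g hg =>
    Subgroup.mem_center_iff.2 fun x => by
      obtain ⟨g, rfl⟩ := s g
      obtain ⟨x, rfl⟩ := s x
      rw [← map_mul, ← map_mul, Subgroup.mem_center_iff.1 (h3 hg) x]
  exact eq_top_iff.2 fun g _ => by
    obtain ⟨g, rfl⟩ := s g
    exact (this.ge (Subgroup.mem_top g) :)

variable {F : Type} [Field F]

/-- The product as a bilinear map. -/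
def zb : (Fin 8 → F) →ₗ[F] (Fin 8 → F) →ₗ[F] Fin 8 → F :=
  LinearMap.mk₂ F zm
    (fun _ _ _ => by simp only [v8, zm, cons_val, cons_val_zero, cons_val_one, Pi.add_apply]; and_intros <;> ring1)
    (fun _ _ _ => by
      simp only [v8, zm, cons_val, cons_val_zero, cons_val_one, Pi.smul_apply, smul_eq_mul]
      and_intros <;> ring1)
    (fun _ _ _ => by simp only [v8, zm, cons_val, cons_val_zero, cons_val_one, Pi.add_apply]; and_intros <;> ring1)
    fun _ _ _ => by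
      simp only [v8, zm, cons_val, cons_val_zero, cons_val_one, Pi.smul_apply, smul_eq_mul]
      and_intros <;> ring1

theorem au_of {g : GL (Fin 8) F} (P : GL (Fin 8) F) (h : ∀ i j,
    g.1 *ᵥ zm (P.1 *ᵥ Pi.single i 1) (P.1 *ᵥ Pi.single j 1) =
      zm (g.1 *ᵥ (P.1 *ᵥ Pi.single i 1)) (g.1 *ᵥ (P.1 *ᵥ Pi.single j 1))) : g ∈ Au zm := by
  have : (zb.compr₂ g.1.mulVecLin).compl₁₂ P.1.mulVecLin P.1.mulVecLin =
      (zb.compl₁₂ g.1.mulVecLin g.1.mulVecLin).compl₁₂ P.1.mulVecLin P.1.mulVecLin :=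
    LinearMap.ext_basis (Pi.basisFun F _) (Pi.basisFun F _) fun i j => by
      rw [Pi.basisFun_apply, Pi.basisFun_apply]
      exact h i j
  intro x y
  have := DFunLike.congr_fun (DFunLike.congr_fun this (P⁻¹.1 *ᵥ x)) (P⁻¹.1 *ᵥ y)
  simp only [LinearMap.compl₁₂_apply, mulVecLin_apply, mulVec_mulVec, Units.mul_inv,
    one_mulVec, LinearMap.compr₂_apply] at this
  exact this

theorem cmp_mv {F' ι : Type} [Field F'] [Fintype ι] (f : F →+* F') (M : Matrix ι ι F) (x : ι → F) :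
    f ∘ (M *ᵥ x) = M.map f *ᵥ (f ∘ x) := funext fun i => RingHom.map_mulVec f M x i

theorem cmp_sg {F' : Type} [Field F'] (f : F →+* F') (j : Fin 8) :
    f ∘ (Pi.single j 1 : Fin 8 → F) = Pi.single j 1 := funext fun i => by simp [Pi.single_apply]

theorem gl_of {ι : Type} [Fintype ι] [DecidableEq ι] (f : (ι → F) →ₗ[F] ι → F)
    (hf : Function.Injective f) : ∃ g : GL ι F, ∀ x, g.1 *ᵥ x = f x := by
  have a : ∀ x, LinearMap.toMatrix' f *ᵥ x = f x := fun x => LinearMap.toMatrix'_mulVec f x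
  exact ⟨(mulVec_injective_iff_isUnit.1 fun x y e => hf (by rw [← a, ← a]; exact e)).unit, a⟩

theorem inv_mv {ι : Type} [Fintype ι] [DecidableEq ι] (g : GL ι F) (x : ι → F) :
    g⁻¹.1 *ᵥ (g.1 *ᵥ x) = x := by rw [mulVec_mulVec, Units.inv_mul, one_mulVec]

theorem mv_inv {ι : Type} [Fintype ι] [DecidableEq ι] (g : GL ι F) (x : ι → F) :
    g.1 *ᵥ (g⁻¹.1 *ᵥ x) = x := inv_mv g⁻¹ x

theorem in_gen {D : Chev} (hD : SC D) {e : Fin D.R.r ≃ Fin 2} (he : Ty D.R CartanMatrix.G₂ e)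
    (t : F) : In (Au zm) (xl t) ∧ In (Au zm) (xs t) ∧ In (Au zm) (yl t) ∧ In (Au zm) (ys t) := by
  obtain ⟨ψ, h⟩ := model hD he F
  have a : ∀ i, In (Au zm) (![xl, xs] i t) ∧ In (Au zm) (![yl, ys] i t) := fun i => by
    obtain ⟨i, rfl⟩ := e.surjective i
    exact ⟨⟨_, (ψ _).2, fun x => (h i t x).1⟩, ⟨_, (ψ _).2, fun x => (h i t x).2⟩⟩
  exact ⟨(a 0).1, (a 1).1, (a 0).2, (a 1).2⟩

variable {k K : Type} [Field k] [Field K] [Algebra k K] [IsGalois k K]
  {Q : (K ≃ₐ[k] K) → (Fin 8 → K) → Fin 8 → K}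

/-- The rational points of a form are the automorphisms of the form of the algebra. -/
theorem desc {D : Chev} {T : Tw k (D.grp K)} (ψ : D.grp K ≃* Au (zm (F := K)))
    (hQ : ∀ σ g x, (ψ (T.a σ g)).1.1 *ᵥ Q σ x = Q σ ((ψ g).1.1 *ᵥ x)) (P : GL (Fin 8) K)
    (hP : ∀ σ x, Q σ (P.1 *ᵥ x) = P.1 *ᵥ (σ ∘ x)) {m : (Fin 8 → k) → (Fin 8 → k) → Fin 8 → k}
    (hm : ∀ x y, P.1 *ᵥ (algebraMap k K ∘ m x y) =
      zm (P.1 *ᵥ (algebraMap k K ∘ x)) (P.1 *ᵥ (algebraMap k K ∘ y)))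
    (h : PSimple (Au m)) : PSimple T.fix := by
  let f : Au m →* Au (zm (F := K)) := ((MulAut.conj P).toMonoidHom.comp
    ((gm (algebraMap k K)).comp (Au m).subtype)).codRestrict _ fun g => au_of P fun i j => by
      have a : ∀ x, (P * gm (algebraMap k K) g.1 * P⁻¹).1 *ᵥ (P.1 *ᵥ (algebraMap k K ∘ x)) =
          P.1 *ᵥ (algebraMap k K ∘ (g.1.1 *ᵥ x)) := fun x => by
        rw [Units.val_mul, Units.val_mul, ← mulVec_mulVec, inv_mv, ← mulVec_mulVec, cmp_mv]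
        rfl
      rw [← cmp_sg (algebraMap k K) i, ← cmp_sg (algebraMap k K) j, ← hm]
      exact (a _).trans (by rw [g.2, hm, ← a, ← a]; rfl)
  have hf : ∀ g x, (f g).1.1 *ᵥ (P.1 *ᵥ x) = P.1 *ᵥ (g.1.1.map (algebraMap k K) *ᵥ x) := fun g x => by
    show (P * gm (algebraMap k K) g.1 * P⁻¹).1 *ᵥ _ = _
    rw [Units.val_mul, Units.val_mul, ← mulVec_mulVec, inv_mv, ← mulVec_mulVec]
    rfl
  have ex : ∀ a b : Au (zm (F := K)), (∀ j, a.1.1 *ᵥ (P.1 *ᵥ Pi.single j 1) =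
      b.1.1 *ᵥ (P.1 *ᵥ Pi.single j 1)) → a = b := fun a b e =>
    Subtype.ext (mul_right_cancel (b := P) (Units.ext (ext_of_mulVec_single fun j => by
      rw [Units.val_mul, Units.val_mul, ← mulVec_mulVec, ← mulVec_mulVec, e])))
  rw [show T.fix = (ψ.symm.toMonoidHom.comp f).range from Subgroup.ext fun g => ⟨fun hg => ?_, ?_⟩]
  · exact ps_range _ h
  · obtain ⟨g', e⟩ : ∃ g' : GL (Fin 8) K, ∀ x, P.1 *ᵥ (g'.1 *ᵥ x) = (ψ g).1.1 *ᵥ (P.1 *ᵥ x) :=
      ⟨P⁻¹ * (ψ g).1 * P, fun x => by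
        rw [Units.val_mul, Units.val_mul, ← mulVec_mulVec, ← mulVec_mulVec, mv_inv]⟩
    have a : ∀ i j, ∃ z, algebraMap k K z = g'.1 i j := fun i j => fixed_top fun σ => by
      have := hQ σ g (P.1 *ᵥ Pi.single j 1)
      rw [hg σ, ← e, hP, hP, ← e] at this
      have := congrFun (congrArg (P⁻¹.1 *ᵥ ·) this) i
      simp only [inv_mv] at this
      rw [show σ ∘ (Pi.single j 1 : Fin 8 → K) = Pi.single j 1 from cmp_sg (σ : K →+* K) j] at this
      simpa using this.symm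
    choose M hM using a
    have b : (of M).map (algebraMap k K) = g'.1 := Matrix.ext hM
    have c : (of M).det ≠ 0 := fun c => g'.det_ne_zero (by
      rw [← b, ← RingHom.mapMatrix_apply, ← RingHom.map_det, c, map_zero])
    refine ⟨⟨GeneralLinearGroup.mkOfDetNeZero _ c, fun x y => funext fun i =>
      (algebraMap k K).injective (congrFun (mulVec_injective_iff_isUnit.2 P.isUnit (show
        P.1 *ᵥ (algebraMap k K ∘ (of M *ᵥ m x y)) =
          P.1 *ᵥ (algebraMap k K ∘ m (of M *ᵥ x) (of M *ᵥ y)) from ?_)) i)⟩,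
      ψ.symm_apply_eq.2 (ex _ _ fun j => (hf _ _).trans ?_)⟩
    · rw [hm, cmp_mv, cmp_mv, cmp_mv, b, e, e, e, hm, (ψ g).2]
    · exact (congrArg (fun X => P.1 *ᵥ (X *ᵥ _)) b).trans (e _)
  · rintro ⟨g, rfl⟩ σ
    refine ψ.injective (ex _ _ fun j => ?_)
    have := hQ σ (ψ.symm (f g)) (P.1 *ᵥ (algebraMap k K ∘ Pi.single j 1))
    have a : ∀ x : Fin 8 → k, σ ∘ algebraMap k K ∘ x = algebraMap k K ∘ x := fun x =>
      funext fun i => σ.commutes _
    rw [ψ.apply_symm_apply, hf, ← cmp_mv, hP, hP, a, a, cmp_mv, ← hf, cmp_sg] at this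
    exact this.trans (by rw [MonoidHom.comp_apply, MulEquiv.coe_toMonoidHom, ψ.apply_symm_apply])

/-- A form with an isotropic vector is split. -/
theorem split (hE : ∀ t : K, In (Au zm) (xl t) ∧ In (Au zm) (xs t) ∧ In (Au zm) (yl t) ∧
    In (Au zm) (ys t)) (S : Sl ⊤ Q) (hA : ∀ σ, ∃ g ∈ Au zm, ∀ x, Q σ x = g.1 *ᵥ (σ ∘ x))
    (hT : ∀ σ x, Q σ x 0 + Q σ x 1 = σ (x 0 + x 1)) {x : Fin 8 → K} (h0 : x ≠ 0) (h1 : zn x = 0)
    (h2 : ∀ σ, Q σ x = x) : ∃ P ∈ Au zm, ∀ σ x, Q σ (P.1 *ᵥ x) = P.1 *ᵥ (σ ∘ x) := by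
  obtain ⟨y, h3, h4⟩ : ∃ y ∈ Fx ⊤ Q, zm x y 0 + zm x y 1 ≠ 0 := by
    by_contra c
    push Not at c
    have a : ∀ j, zm x (Pi.single j 1) 0 + zm x (Pi.single j 1) 1 = 0 := fun j =>
      Submodule.span_induction (p := fun y _ => zb x y 0 + zb x y 1 = 0) c (by simp)
        (fun _ _ _ _ h h' => by simp only [map_add, Pi.add_apply]; linear_combination h + h')
        (fun t _ _ h => by simp only [map_smul, Pi.smul_apply, smul_eq_mul, ← mul_add, h, mul_zero])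
        (S.span.ge Submodule.mem_top)
    simp [Fin.forall_fin_succ, zm] at a
    exact h0 (by simp [v8, a])
  have h5 : zm x y ∈ Fx ⊤ Q := fun σ s => by
    obtain ⟨g, a, b⟩ := hA σ
    rw [b, show σ ∘ zm x y = _ from zm_map (σ : K →+* K) x y, a]
    exact congrArg₂ zm ((b x).symm.trans (h2 σ)) ((b y).symm.trans (h3 σ s))
  have h6 := S.smul_mem (c := (zm x y 0 + zm x y 1)⁻¹) (fun σ s => by
    rw [map_inv₀, ← hT, h5 σ s]) h5
  obtain ⟨g, h7, h8⟩ := trans hE (x := (zm x y 0 + zm x y 1)⁻¹ • zm x y)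
    ((mul_add _ _ _).symm.trans (inv_mul_cancel₀ h4)) (by
      have := zn_mul x y
      simp only [zn, Pi.smul_apply, smul_eq_mul] at this h1 ⊢
      linear_combination (zm x y 0 + zm x y 1)⁻¹ ^ 2 * (this + (y 0 * y 1 -
        (y 2 * y 5 + y 3 * y 6 + y 4 * y 7)) * h1))
  have h9 : ∀ σ : K ≃ₐ[k] K, ∃ M : Matrix (Fin 3) (Fin 3) K, M.det = 1 ∧
      ∀ x, g.1 *ᵥ Q σ (g⁻¹.1 *ᵥ x) = act M (σ ∘ x) := fun σ => by
    obtain ⟨a, a1, a2⟩ := hA σ
    have b : ∀ x, (g * a * gm (σ : K →+* K) g⁻¹).1 *ᵥ (σ ∘ x) = g.1 *ᵥ Q σ (g⁻¹.1 *ᵥ x) :=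
      fun x => by
        rw [a2, Units.val_mul, Units.val_mul, ← mulVec_mulVec, ← mulVec_mulVec]
        exact congrArg (fun z => g.1 *ᵥ (a.1 *ᵥ z)) (cmp_mv (σ : K →+* K) _ x).symm
    obtain ⟨M, c, d⟩ := stab (g := g * a * gm (σ : K →+* K) g⁻¹)
      (mul_mem (mul_mem h7 a1) (au_of 1 fun i j => by
        rw [Units.val_one, one_mulVec, one_mulVec, ← cmp_sg (σ : K →+* K) i,
          ← cmp_sg (σ : K →+* K) j, ← zm_map]
        exact (cmp_mv _ _ _).symm.trans (by rw [inv_mem h7, zm_map, cmp_mv, cmp_mv]; rfl))) (by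
      conv_lhs => rw [← cmp_sg (σ : K →+* K) 0]
      exact (b _).trans (by rw [← h8, inv_mv, h6 σ trivial]))
    exact ⟨M, c, fun x => (b x).symm.trans (d _)⟩
  choose M h9 h10 using h9
  obtain ⟨R, hR⟩ := h90 (Γ := ⊤) M (fun σ s τ t => act_inj fun x => by
      obtain ⟨x, rfl⟩ : ∃ x', (σ * τ) ∘ x' = x :=
        ⟨(σ * τ).symm ∘ x, funext fun i => (σ * τ).apply_symm_apply _⟩
      rw [← h10, S.mul σ s τ t, ← inv_mv g (Q τ _), h10, h10, act_mul]
      exact congrArg _ (act_map (σ : K →+* K) _ _))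
    ((Op.all fun j => S.cont (g⁻¹.1 *ᵥ Pi.single j 1)).imp fun σ _ e => by
      have a : ∀ j, act (M σ) (Pi.single j 1) = Pi.single j 1 := fun j => by
        conv_lhs => rw [← cmp_sg (σ : K →+* K) j]
        exact (h10 σ _).symm.trans (by rw [e, mv_inv])
      have h0 := a 2
      have h1 := a 3
      have h2 := a 4
      simp [act, v8] at h0 h1 h2
      ext i j
      fin_cases i <;> fin_cases j <;> simp [h0, h1, h2])
  have d : ∀ σ : K ≃ₐ[k] K, σ R.1.det = R.1.det := fun σ => by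
    have := congrArg det (hR σ trivial)
    rw [det_mul, h9, one_mul] at this
    exact (RingHom.map_det (σ : K →+* K) _).trans this
  obtain ⟨p, a, b⟩ := in_act hE (M := R.1 * diagonal ![R.1.det⁻¹, 1, 1]) (by
    rw [det_mul, det_diagonal, Fin.prod_univ_three]
    simpa using mul_inv_cancel₀ R.det_ne_zero)
  refine ⟨g⁻¹ * p, mul_mem (inv_mem h7) a, fun σ x => ?_⟩
  rw [Units.val_mul, ← mulVec_mulVec, ← mulVec_mulVec, ← inv_mv g (Q σ _), h10, b, b,
    show σ ∘ act _ x = _ from act_map (σ : K →+* K) _ x, ← act_mul]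
  refine congrArg (fun X => g⁻¹.1 *ᵥ act X _) ?_
  refine (congrArg _ (map_mul' σ _ _)).trans ?_
  rw [← Matrix.mul_assoc, hR σ trivial, diagonal_map (map_zero σ)]
  exact congrArg (fun v => R.1 * diagonal v) (funext fun i => by fin_cases i <;> simp [d])

end Vale.Agent.P011UZG
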