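import Vale.Agent.P011UZG.Zorn
import Vale.Agent.P011UZG.Mk
import Vale.Agent.P011UI.Iso

/-!
The Chevalley group of type `G₂` is the automorphism group of the split octonion algebra.
-/

set_option autoImplicit false
set_option linter.all false

namespace Vale.Agent.P011UZG

open Matrix Vale.Agent.P011L Vale.Agent.P183CH Vale.Agent.P183CH.Chev Vale.Agent.P011U

/-- The positive generators. -/
def eM : Fin 2 → Matrix (Fin 8) (Fin 8) ℤ := ![single 2 3 1 - single 6 5 1,
  single 0 6 1 - single 1 6 1 - single 3 0 1 + single 3 1 1 + single 7 2 1 - single 5 4 1]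

/-- The divided squares. -/
def eM' : Fin 2 → Matrix (Fin 8) (Fin 8) ℤ := ![0, -single 3 6 1]

/-- The negative generators. -/
def fM : Fin 2 → Matrix (Fin 8) (Fin 8) ℤ := ![single 3 2 1 - single 5 6 1,
  single 1 3 1 - single 0 3 1 + single 6 0 1 - single 6 1 1 + single 2 7 1 - single 4 5 1]

/-- The divided squares. -/
def fM' : Fin 2 → Matrix (Fin 8) (Fin 8) ℤ := ![0, -single 6 3 1]

/-- The weights. -/
def μM : Fin 2 → Fin 8 → ℤ := ![![0, 0, 1, -1, 0, -1, 1, 0], ![0, 0, -1, 2, -1, 1, -2, 1]]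

theorem mn : Mn CartanMatrix.G₂ eM fM μM where
  ef := by decide +kernel
  ef' := by decide +kernel
  he i a b c j := sub_eq_zero.1 ((mul_eq_zero.1 (congrFun (congrFun ((show ∀ i j,
    (of fun a b => eM i a b * (μM j a - (μM j b + CartanMatrix.G₂ i j))) = 0 by
      decide +kernel) i j) a) b)).resolve_left c)
  hf i a b c j := sub_eq_zero.1 ((mul_eq_zero.1 (congrFun (congrFun ((show ∀ i j,
    (of fun a b => fM i a b * (μM j a - (μM j b - CartanMatrix.G₂ i j))) = 0 by
      decide +kernel) i j) a) b)).resolve_left c)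
  sc := eq_top_iff.2 fun v _ => by
    rw [show v = v 0 • (fun i => μM i 2) + (v 0 + v 1) • fun i => μM i 7 by
      ext i; fin_cases i <;> simp [μM]]
    exact add_mem (Submodule.smul_mem _ _ (Submodule.subset_span ⟨2, rfl⟩))
      (Submodule.smul_mem _ _ (Submodule.subset_span ⟨7, rfl⟩))

theorem sq_e : ∀ i, eM i * eM i = 2 • eM' i ∧ eM i * eM i * eM i = 0 := by decide +kernel

theorem sq_f : ∀ i, fM i * fM i = 2 • fM' i ∧ fM i * fM i * fM i = 0 := by decide +kernel

variable {F : Type} [Field F]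

theorem sg_map (i j : Fin 8) : (single i j (1 : ℤ)).map (Int.cast : ℤ → F) = single i j 1 := by
  ext a b
  simp [single_apply]

theorem e_vec (i : Fin 2) (t : F) (x : Fin 8 → F) : (1 + t • (eM i).map (Int.cast : ℤ → F) +
    t ^ 2 • (eM' i).map (Int.cast : ℤ → F)) *ᵥ x = ![xl, xs] i t x := by
  rw [add_mulVec, add_mulVec, one_mulVec, smul_mulVec, smul_mulVec]
  revert i
  simp [Fin.forall_fin_two, eM, eM', Matrix.map_add, Matrix.map_sub, Matrix.map_neg, add_mulVec,
    sub_mulVec, neg_mulVec, sg_map, single_mulVec, v8, xl, xs]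
  and_intros <;> first | trivial | ring1

theorem f_vec (i : Fin 2) (t : F) (x : Fin 8 → F) : (1 + t • (fM i).map (Int.cast : ℤ → F) +
    t ^ 2 • (fM' i).map (Int.cast : ℤ → F)) *ᵥ x = ![yl, ys] i t x := by
  rw [add_mulVec, add_mulVec, one_mulVec, smul_mulVec, smul_mulVec]
  revert i
  simp [Fin.forall_fin_two, fM, fM', Matrix.map_add, Matrix.map_sub, Matrix.map_neg, add_mulVec,
    sub_mulVec, neg_mulVec, sg_map, single_mulVec, v8, yl, ys]
  and_intros <;> first | trivial | ring1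

theorem model {D : Chev} (hD : SC D) {e : Fin D.R.r ≃ Fin 2} (he : Ty D.R CartanMatrix.G₂ e)
    (K : Type) [Field K] : ∃ ψ : D.grp K ≃* Au (zm (F := K)), ∀ i t x,
      (ψ ((GG D K).x (D.R.α i) t)).1.1 *ᵥ x = ![xl, xs] (e i) t x ∧
      (ψ ((GG D K).x (-D.R.α i) t)).1.1 *ᵥ x = ![yl, ys] (e i) t x := by
  have h : Mn D.A (fun i => eM (e i)) (fun i => fM (e i)) fun i => μM (e i) :=
    { ef := fun i => mn.ef _
      ef' := fun i j c => mn.ef' _ _ (e.injective.ne c)
      he := fun i a b c j => (mn.he _ a b c _).trans (congrArg _ (he i j).symm)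
      hf := fun i a b c j => (mn.hf _ a b c _).trans (congrArg _ (he i j).symm)
      sc := by
        have := congrArg (Submodule.map (LinearEquiv.funCongrLeft ℤ ℤ e).toLinearMap) mn.sc
        rw [Submodule.map_span, Submodule.map_top, LinearEquiv.range, ← Set.range_comp] at this
        exact this }
  let D' := dat h (fun i => sq_e (e i)) fun i => sq_f (e i)
  have hx : ∀ i (t : K) (x : Fin 8 → K), D'.x i t *ᵥ x = ![xl, xs] (e i) t x := fun i t x =>
    (congrArg (· *ᵥ x) (ex_dv (dp_e (D := D') i) t)).trans (e_vec _ t x)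
  have hy : ∀ i (t : K) (x : Fin 8 → K), D'.y i t *ᵥ x = ![yl, ys] (e i) t x := fun i t x =>
    (congrArg (· *ᵥ x) (ex_dv (dp_f (D := D') i) t)).trans (f_vec _ t x)
  have hE : D'.grp K = Au (zm (F := K)) := by
    have a : ∀ i t, In (D'.grp K) (![xl, xs] i t) ∧ In (D'.grp K) (![yl, ys] i t) := fun i t => by
      obtain ⟨i, rfl⟩ := e.surjective i
      exact ⟨⟨_, x_e (D := D') K i t, hx i t⟩, ⟨_, x_f (D := D') K i t, hy i t⟩⟩
    refine au_eq (fun t => ⟨(a 0 t).1, (a 1 t).1, (a 0 t).2, (a 1 t).2⟩)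
      ((Subgroup.closure_le _).2 ?_)
    rintro g ⟨i, t, c | c⟩ x y
    · rw [c]
      erw [hx, hx, hx]
      generalize e i = j
      revert j
      exact Fin.forall_fin_two.2 ⟨xl_zm t x y, xs_zm t x y⟩
    · rw [c]
      erw [hy, hy, hy]
      generalize e i = j
      revert j
      exact Fin.forall_fin_two.2 ⟨yl_zm t x y, ys_zm t x y⟩
  obtain ⟨ψ, -, -, h1⟩ := P011UI.iso D D' (Equiv.refl _) hD h.sc (fun _ _ => rfl) K
  refine ⟨ψ.trans (MulEquiv.subgroupCongr hE), fun i t x => ⟨?_, ?_⟩⟩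
  · exact (congrArg (· *ᵥ x) ((congrArg (·.1.1) (h1 i t).1).trans
      (congrArg Units.val (GG_e (D := D') i t)))).trans (hx i t x)
  · exact (congrArg (· *ᵥ x) ((congrArg (·.1.1) (h1 i t).2).trans
      (congrArg Units.val (GG_f (D := D') i t)))).trans (hy i t x)

end Vale.Agent.P011UZG
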