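import Vale.Agent.P011UJ.Rec

/-!
The automorphisms of the split octonion algebra are generated by root elements.
-/

set_option autoImplicit false
set_option linter.all false

namespace Vale.Agent.P011UZG

open Matrix Vale.Agent.P011L

variable {F : Type} [Field F]

/-- The automorphisms of a product. -/
def Au {ι : Type} [Fintype ι] [DecidableEq ι] (m : (ι → F) → (ι → F) → ι → F) :
    Subgroup (GL ι F) where
  carrier := {g | ∀ x y, g.1 *ᵥ m x y = m (g.1 *ᵥ x) (g.1 *ᵥ y)}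
  mul_mem' := fun {a b} ha hb x y => by
    simp only [Units.val_mul, ← mulVec_mulVec]
    rw [hb, ha]
  one_mem' := fun x y => by simp
  inv_mem' := fun {a} ha x y => by
    have := congrArg (a⁻¹.1 *ᵥ ·) (ha (a⁻¹.1 *ᵥ x) (a⁻¹.1 *ᵥ y))
    simpa only [mulVec_mulVec, Units.inv_mul, Units.mul_inv, one_mulVec] using this.symm

/-- The product of vector matrices. -/
def zm (x y : Fin 8 → F) : Fin 8 → F :=
  ![x 0 * y 0 + x 2 * y 5 + x 3 * y 6 + x 4 * y 7, x 1 * y 1 + x 5 * y 2 + x 6 * y 3 + x 7 * y 4,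
    x 0 * y 2 + y 1 * x 2 - (x 6 * y 7 - x 7 * y 6), x 0 * y 3 + y 1 * x 3 - (x 7 * y 5 - x 5 * y 7),
    x 0 * y 4 + y 1 * x 4 - (x 5 * y 6 - x 6 * y 5), y 0 * x 5 + x 1 * y 5 + (x 3 * y 4 - x 4 * y 3),
    y 0 * x 6 + x 1 * y 6 + (x 4 * y 2 - x 2 * y 4), y 0 * x 7 + x 1 * y 7 + (x 2 * y 3 - x 3 * y 2)]

/-- The norm. -/
def zn (x : Fin 8 → F) : F := x 0 * x 1 - (x 2 * x 5 + x 3 * x 6 + x 4 * x 7)

/-- The root elements of the long simple root. -/
def xl (t : F) (x : Fin 8 → F) : Fin 8 → F :=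
  ![x 0, x 1, x 2 + t * x 3, x 3, x 4, x 5, x 6 - t * x 5, x 7]

/-- The root elements of the short simple root. -/
def xs (t : F) (x : Fin 8 → F) : Fin 8 → F :=
  ![x 0 + t * x 6, x 1 - t * x 6, x 2, x 3 + t * (x 1 - x 0) - t ^ 2 * x 6, x 4, x 5 - t * x 4,
    x 6, x 7 + t * x 2]

/-- The root elements of the negative long simple root. -/
def yl (t : F) (x : Fin 8 → F) : Fin 8 → F :=
  ![x 0, x 1, x 2, x 3 + t * x 2, x 4, x 5 - t * x 6, x 6, x 7]

/-- The root elements of the negative short simple root. -/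
def ys (t : F) (x : Fin 8 → F) : Fin 8 → F :=
  ![x 0 - t * x 3, x 1 + t * x 3, x 2 + t * x 7, x 3, x 4 - t * x 5, x 5,
    x 6 + t * (x 0 - x 1) - t ^ 2 * x 3, x 7]

/-- The action of the special linear group. -/
def act (M : Matrix (Fin 3) (Fin 3) F) (x : Fin 8 → F) : Fin 8 → F :=
  ![x 0, x 1, M 0 0 * x 2 + M 0 1 * x 3 + M 0 2 * x 4, M 1 0 * x 2 + M 1 1 * x 3 + M 1 2 * x 4,
    M 2 0 * x 2 + M 2 1 * x 3 + M 2 2 * x 4,
    (M 1 1 * M 2 2 - M 1 2 * M 2 1) * x 5 + (M 1 2 * M 2 0 - M 1 0 * M 2 2) * x 6 +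
      (M 1 0 * M 2 1 - M 1 1 * M 2 0) * x 7,
    (M 2 1 * M 0 2 - M 2 2 * M 0 1) * x 5 + (M 2 2 * M 0 0 - M 2 0 * M 0 2) * x 6 +
      (M 2 0 * M 0 1 - M 2 1 * M 0 0) * x 7,
    (M 0 1 * M 1 2 - M 0 2 * M 1 1) * x 5 + (M 0 2 * M 1 0 - M 0 0 * M 1 2) * x 6 +
      (M 0 0 * M 1 1 - M 0 1 * M 1 0) * x 7]

/-- The reflection of the short root. -/
def ns (s : F) (x : Fin 8 → F) : Fin 8 → F :=
  ![x 1, x 0, -s * x 7, -x 6, s * x 5, -s * x 4, -x 3, s * x 2]

theorem v8 {x y : Fin 8 → F} : x = y ↔ x 0 = y 0 ∧ x 1 = y 1 ∧ x 2 = y 2 ∧ x 3 = y 3 ∧ x 4 = y 4 ∧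
    x 5 = y 5 ∧ x 6 = y 6 ∧ x 7 = y 7 := by
  simp only [funext_iff, Fin.forall_fin_succ, IsEmpty.forall_iff, and_true]
  rfl

theorem xl_zm (t : F) (x y : Fin 8 → F) : xl t (zm x y) = zm (xl t x) (xl t y) := by
  simp only [v8, zm, xl, cons_val, cons_val_zero, cons_val_one]
  and_intros <;> first | trivial | ring1

theorem xs_zm (t : F) (x y : Fin 8 → F) : xs t (zm x y) = zm (xs t x) (xs t y) := by
  simp only [v8, zm, xs, cons_val, cons_val_zero, cons_val_one]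
  and_intros <;> first | trivial | ring1

theorem yl_zm (t : F) (x y : Fin 8 → F) : yl t (zm x y) = zm (yl t x) (yl t y) := by
  simp only [v8, zm, yl, cons_val, cons_val_zero, cons_val_one]
  and_intros <;> first | trivial | ring1

theorem ys_zm (t : F) (x y : Fin 8 → F) : ys t (zm x y) = zm (ys t x) (ys t y) := by
  simp only [v8, zm, ys, cons_val, cons_val_zero, cons_val_one]
  and_intros <;> first | trivial | ring1


theorem act_mul (M N : Matrix (Fin 3) (Fin 3) F) (x : Fin 8 → F) :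
    act (M * N) x = act M (act N x) := by
  simp only [v8, act, mul_apply, Fin.sum_univ_three, cons_val, cons_val_zero, cons_val_one]
  and_intros <;> first | trivial | ring1

theorem act_one (x : Fin 8 → F) : act 1 x = x := by simp [act, v8]

theorem act_map {F' : Type} [Field F'] (f : F →+* F') (M : Matrix (Fin 3) (Fin 3) F)
    (x : Fin 8 → F) : f ∘ act M x = act (M.map f) (f ∘ x) := by simp [v8, act]

theorem zm_map {F' : Type} [Field F'] (f : F →+* F') (x y : Fin 8 → F) :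
    f ∘ zm x y = zm (f ∘ x) (f ∘ y) := by simp [v8, zm]

theorem act_inj {M N : Matrix (Fin 3) (Fin 3) F} (h : ∀ x, act M x = act N x) : M = N := by
  have h0 := h (Pi.single 2 1)
  have h1 := h (Pi.single 3 1)
  have h2 := h (Pi.single 4 1)
  simp [act] at h0 h1 h2
  ext i j
  fin_cases i <;> fin_cases j <;> simp [h0, h1, h2]

theorem zn_act (M : Matrix (Fin 3) (Fin 3) F) (h : M.det = 1) (x : Fin 8 → F) :
    zn (act M x) = zn x := by
  rw [det_fin_three] at h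
  simp only [zn, act, cons_val, cons_val_zero, cons_val_one]
  linear_combination -(x 2 * x 5 + x 3 * x 6 + x 4 * x 7) * h

theorem zn_mul (x y : Fin 8 → F) : zn (zm x y) = zn x * zn y := by
  simp only [zn, zm, cons_val, cons_val_zero, cons_val_one]
  ring

/-- The stabiliser of the first idempotent. -/
theorem stab {g : GL (Fin 8) F} (hg : g ∈ Au zm) (h0 : g.1 *ᵥ Pi.single 0 1 = Pi.single 0 1) :
    ∃ M : Matrix (Fin 3) (Fin 3) F, M.det = 1 ∧ ∀ x, g.1 *ᵥ x = act M x := by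
  obtain ⟨c, hc⟩ : ∃ c : Fin 8 → Fin 8 → F, ∀ j, g.1 *ᵥ Pi.single j 1 = c j := ⟨_, fun _ => rfl⟩
  have a : ∀ i j l, zm (Pi.single i 1) (Pi.single j 1) = (Pi.single l 1 : Fin 8 → F) →
      c l = zm (c i) (c j) := fun i j l e => by rw [← hc, ← hc, ← hc, ← hg, e]
  have b : ∀ j, zm (Pi.single 0 1) (Pi.single j 1) = (Pi.single j 1 : Fin 8 → F) →
      zm (Pi.single j 1) (Pi.single 0 1) = (0 : Fin 8 → F) →
      c j = ![0, 0, c j 2, c j 3, c j 4, 0, 0, 0] := fun j e e' => by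
    have h1 := a 0 j j e
    have h2 := congrFun (hg (Pi.single j 1) (Pi.single 0 1)) 0
    rw [← hc 0, h0, v8] at h1
    rw [e', h0, hc] at h2
    simp [zm] at h1 h2
    simp [v8, h1, ← h2]
  have h2 := b 2 (by simp [zm, v8]) (by simp [zm, v8])
  have h3 := b 3 (by simp [zm, v8]) (by simp [zm, v8])
  have h4 := b 4 (by simp [zm, v8]) (by simp [zm, v8])
  have h5 := a 3 4 5 (by simp [zm, v8])
  have h6 := a 4 2 6 (by simp [zm, v8])
  have h7 := a 2 3 7 (by simp [zm, v8])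
  have h1 := a 5 2 1 (by simp [zm, v8])
  have h8 := congrFun (a 2 5 0 (by simp [zm, v8])) 0
  rw [hc] at h0
  generalize c 2 2 = p0, c 2 3 = p1, c 2 4 = p2 at h2
  generalize c 3 2 = q0, c 3 3 = q1, c 3 4 = q2 at h3
  generalize c 4 2 = r0, c 4 3 = r1, c 4 4 = r2 at h4
  rw [h5] at h1 h8
  rw [h0, h2, h3, h4] at h8
  simp [zm] at h8
  refine ⟨!![p0, q0, r0; p1, q1, r1; p2, q2, r2], by
    rw [det_fin_three]; simp; linear_combination -h8, fun x => ?_⟩
  have e : x = ∑ j, x j • (Pi.single j 1 : Fin 8 → F) := by simp [v8, Fin.sum_univ_eight]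
  conv_lhs => rw [e, mulVec_sum]
  simp only [mulVec_smul, hc, Fin.sum_univ_eight, h0, h1, h5, h6, h7, h2, h3, h4]
  rw [show (Pi.single 0 1 : Fin 8 → F) = ![1, 0, 0, 0, 0, 0, 0, 0] by simp [v8]]
  simp only [v8, zm, act, cons_val, cons_val_zero, cons_val_one, Pi.add_apply, Pi.smul_apply,
    smul_eq_mul, of_apply]
  and_intros <;> first | ring1 | linear_combination -x 1 * h8

/-- The map is given by an element of the group. -/
def In (E : Subgroup (GL (Fin 8) F)) (f : (Fin 8 → F) → Fin 8 → F) : Prop :=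
  ∃ g ∈ E, ∀ x, g.1 *ᵥ x = f x

variable {E : Subgroup (GL (Fin 8) F)}

theorem In.comp {f f' f'' : (Fin 8 → F) → Fin 8 → F} (h : In E f) (h' : In E f')
    (e : ∀ x, f (f' x) = f'' x) : In E f'' := by
  obtain ⟨g, h1, h2⟩ := h
  obtain ⟨g', h3, h4⟩ := h'
  exact ⟨g * g', mul_mem h1 h3, fun x => by rw [Units.val_mul, ← mulVec_mulVec, h4, h2, e]⟩

section
variable (h : ∀ t, In E (xl t) ∧ In E (xs t) ∧ In E (yl t) ∧ In E (ys t))
include h

theorem in_ns {s : F} (hs : s = 1 ∨ s = -1) : In E (ns s) :=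
  ((h s).2.1.comp (h (-s)).2.2.2 fun _ => rfl).comp (h s).2.1 fun x => by
    simp only [v8, xs, ys, ns, cons_val, cons_val_zero, cons_val_one]
    rcases hs with rfl | rfl <;> and_intros <;> ring1

theorem in_act {M : Matrix (Fin 3) (Fin 3) F} (hM : M.det = 1) : In E (act M) := by
  have h1 : GeneralLinearGroup.mkOfDetNeZero M (hM ▸ one_ne_zero) ∈ SA F (2 + 1) := Units.ext hM
  rw [← P011UJ.genA 2 two_pos] at h1
  refine Subgroup.closure_induction (p := fun g _ => In E (act g.1)) ?_ ?_ ?_ ?_ h1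
  · have a := in_ns h (.inl rfl)
    have b := in_ns h (.inr rfl)
    have c : ∀ {f}, In E f → ∀ {f'}, (∀ x, f x = f' x) → In E f' := fun hf _ e =>
      hf.imp fun _ h => ⟨h.1, fun x => (h.2 x).trans (e x)⟩
    rintro g ⟨i, t, e | e⟩ <;> rw [e] <;> fin_cases i
    · exact c (h t).1 fun x => by simp [xl, act, v8]; ring
    · exact (a.comp (h t).1 fun _ => rfl).comp b fun x => by
        simp [xl, act, ns, v8]; constructor <;> ring
    · exact c (h t).2.2.1 fun x => by simp [yl, act, v8]; constructor <;> ring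
    · exact (a.comp (h t).2.2.1 fun _ => rfl).comp b fun x => by
        simp [yl, act, ns, v8]; constructor <;> ring
  · exact ⟨1, one_mem _, fun x => by simp [act_one]⟩
  · exact fun a b _ _ ha hb => ha.comp hb fun x => (act_mul _ _ x).symm
  · rintro a - ⟨g, h1, h2⟩
    refine ⟨g⁻¹, inv_mem h1, fun x => ?_⟩
    conv_lhs => rw [← act_one x, ← a.mul_inv, act_mul, ← h2, mulVec_mulVec, Units.inv_mul,
      one_mulVec]

omit h in
theorem kill1 (x : Fin 8 → F) : ∃ M : Matrix (Fin 3) (Fin 3) F, M.det = 1 ∧ act M x 2 = 0 ∧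
    act M x 4 = 0 := by
  simp only [act, cons_val, det_fin_three]
  by_cases a : x 3 = 0
  · by_cases b : x 2 = 0
    · exact ⟨!![1, 0, 0; 0, 0, 1; 0, -1, 0], by simp [a, b]⟩
    · exact ⟨!![0, -1, 0; 1, 0, 0; -x 4 / x 2, 0, 1], by simp [a, b]⟩
  · exact ⟨!![1, -x 2 / x 3, 0; 0, 1, 0; 0, -x 4 / x 3, 1], by simp [a]⟩

omit h in
theorem kill2 {y : Fin 8 → F} (h1 : y 0 + y 1 = 1) (h2 : zn y = 0) (h3 : y 2 = 0) (h4 : y 4 = 0) :
    ∃ t, xs t y 0 + xs t y 1 = 1 ∧ zn (xs t y) = 0 ∧ (xs t y 2 = 0 ∧ xs t y 3 = 0 ∧ xs t y 4 = 0) ∧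
      (y 5 = 0 ∧ y 6 = 0 ∧ y 7 = 0 → xs t y 5 = 0 ∧ xs t y 6 = 0 ∧ xs t y 7 = 0) := by
  simp only [zn, xs, cons_val, cons_val_zero, cons_val_one, h3, h4] at h2 ⊢
  obtain ⟨t, ht⟩ : ∃ t, y 3 + t * (y 1 - y 0) - t ^ 2 * y 6 = 0 := by
    by_cases a : y 6 = 0
    · exact ⟨-y 3 * (y 1 - y 0), by
        rw [a] at h2 ⊢
        linear_combination 4 * y 3 * h2 - y 3 * (y 0 + y 1 + 1) * h1⟩
    · exact ⟨y 1 / y 6, by field_simp; linear_combination -h2⟩
  exact ⟨t, by linear_combination h1, by linear_combination h2, ⟨trivial, ht, trivial⟩,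
    fun c => by simp [c]⟩

theorem kill {x : Fin 8 → F} (h1 : x 0 + x 1 = 1) (h2 : zn x = 0) : ∃ f, In E f ∧
    f x 0 + f x 1 = 1 ∧ zn (f x) = 0 ∧ (f x 2 = 0 ∧ f x 3 = 0 ∧ f x 4 = 0) ∧
      (x 5 = 0 ∧ x 6 = 0 ∧ x 7 = 0 → f x 5 = 0 ∧ f x 6 = 0 ∧ f x 7 = 0) := by
  obtain ⟨M, h3, h4, h5⟩ := kill1 x
  obtain ⟨t, a, b, c, d⟩ := kill2 (by simpa [act] using h1) ((zn_act M h3 x).trans h2) h4 h5
  exact ⟨fun x => xs t (act M x), (h t).2.1.comp (in_act h h3) fun _ => rfl, a, b, c,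
    fun e => d (by simp [act, e])⟩

/-- Transitivity on the idempotents. -/
theorem trans {x : Fin 8 → F} (h1 : x 0 + x 1 = 1) (h2 : zn x = 0) :
    ∃ g ∈ E, g.1 *ᵥ x = Pi.single 0 1 := by
  have a := in_ns h (.inl rfl)
  obtain ⟨f, a1, a2, a3, a4, -⟩ := kill h h1 h2
  obtain ⟨f', b1, b2, b3, b4, b5⟩ := kill h (x := ns 1 (f x)) ((add_comm _ _).trans a2)
    (by simp only [zn, ns, cons_val, cons_val_zero, cons_val_one] at a3 ⊢; linear_combination a3)
  have b6 := b5 (by simp [ns, a4])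
  have c := b1.comp (a.comp a1 fun _ => rfl) fun _ => rfl
  simp only [zn, b4, zero_mul, add_zero, sub_zero, mul_eq_zero] at b3
  rcases b3 with d | d
  · obtain ⟨g, h3, h4⟩ := a.comp c fun _ => rfl
    rw [d, zero_add] at b2
    refine ⟨g, h3, (h4 x).trans ?_⟩
    show ns 1 (f' (ns 1 (f x))) = _
    generalize f' (ns 1 (f x)) = y at *
    simp [ns, v8, b4, b6, d, b2]
  · obtain ⟨g, h3, h4⟩ := c
    rw [d, add_zero] at b2
    exact ⟨g, h3, by rw [h4]; simp [v8, b4, b6, d, b2]⟩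

theorem au_eq (hE : E ≤ Au zm) : E = Au zm := by
  refine le_antisymm hE fun g hg => ?_
  have a : ∀ j, g.1 *ᵥ Pi.single j 1 ≠ 0 := fun j e => by
    have := congrFun (congrArg (g⁻¹.1 *ᵥ ·) e) j
    simp only [mulVec_mulVec, Units.inv_mul, one_mulVec, mulVec_zero] at this
    simp at this
  have h1 := hg (Pi.single 0 1) (Pi.single 0 1)
  have h2 := hg (Pi.single 0 1) (Pi.single 1 1)
  rw [show zm (Pi.single 0 1) (Pi.single 0 1) = (Pi.single 0 1 : Fin 8 → F) by simp [zm, v8]] at h1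
  rw [show zm (Pi.single 0 1) (Pi.single 1 1) = (0 : Fin 8 → F) by simp [zm, v8], mulVec_zero] at h2
  have h3 := a 0
  have h4 := a 1
  obtain ⟨x, hx⟩ : ∃ x, g.1 *ᵥ Pi.single 0 1 = x := ⟨_, rfl⟩
  rw [hx] at h1 h2 h3
  generalize g.1 *ᵥ Pi.single 1 1 = y at h2 h4
  rw [v8] at h1
  simp only [zm, cons_val, cons_val_zero, cons_val_one] at h1
  obtain ⟨b0, b1, b2, b3, b4, b5, b6, b7⟩ := h1
  have h5 : x 0 + x 1 = 1 := by
    by_contra c
    have d : ∀ z : F, z * (x 0 + x 1 - 1) = 0 → z = 0 := fun z e =>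
      (mul_eq_zero.1 e).resolve_right (sub_ne_zero.2 c)
    have d1 := d (x 0 - x 1) (by linear_combination b1 - b0)
    have d2 := d (x 2) (by linear_combination -b2)
    have d3 := d (x 3) (by linear_combination -b3)
    have d4 := d (x 4) (by linear_combination -b4)
    have d5 := d (x 5) (by linear_combination -b5)
    have d6 := d (x 6) (by linear_combination -b6)
    have d7 := d (x 7) (by linear_combination -b7)
    rw [sub_eq_zero] at d1
    rcases mul_eq_zero.1 (show x 1 * (x 1 - 1) = 0 by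
      rw [d2, d3, d4] at b1; linear_combination -b1) with e | e
    · exact h3 (by simp [v8, d1, d2, d3, d4, d5, d6, d7, e])
    · rw [sub_eq_zero] at e
      exact h4 (by simpa [zm, v8, d1, d2, d3, d4, d5, d6, d7, e, eq_comm] using h2)
  obtain ⟨g', h6, h7⟩ := trans h h5 (show zn x = 0 by
    rw [zn]; linear_combination b0 + x 0 * h5)
  obtain ⟨M, h8, h9⟩ := stab (mul_mem (hE h6) hg) (by rw [Units.val_mul, ← mulVec_mulVec, hx, h7])
  obtain ⟨g'', h10, h11⟩ := in_act h h8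
  rw [← mul_mem_cancel_left h6, show g' * g = g'' from
    Units.ext (ext_of_mulVec_single fun j => (h9 _).trans (h11 _).symm)]
  exact h10

end

end Vale.Agent.P011UZG
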